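import Mathlib

/-!
# P281, project T-S (helper834): sums of `s x ∧ y`, generic
-/

open Set Filter
open scoped Topology ContDiff ComplexConjugate

noncomputable section

namespace Vale.Agent.P281.H834.TS

variable {V : Type} [NormedAddCommGroup V] [NormedSpace ℝ V] {ι : Type} [Fintype ι]

/-- `i x`. -/
def ix (x : V →L[ℝ] ℂ) : V →L[ℝ] ℂ := (ContinuousLinearMap.mul ℝ ℂ Complex.I).comp x

@[simp] theorem ix_apply (x : V →L[ℝ] ℂ) (u : V) : ix x u = Complex.I * x u := rfl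

/-- `s x ∧ y`. -/
def wlg (x y : V →L[ℝ] ℂ) (s : ℂ) : V →L[ℝ] V →L[ℝ] ℂ :=
  s.re • (x.smulRight y - y.smulRight x) + s.im • ((ix x).smulRight y - y.smulRight (ix x))

theorem wlg_apply (x y : V →L[ℝ] ℂ) (s : ℂ) (u v : V) :
    wlg x y s u v = s * (x u * y v - y u * x v) := by
  have h : wlg x y s u v = (s.re : ℂ) * (x u * y v - y u * x v) +
      (s.im : ℂ) * (Complex.I * x u * y v - y u * (Complex.I * x v)) := by
    simp [wlg]
  rw [h]
  have h2 : s = (s.re : ℂ) + (s.im : ℂ) * Complex.I := (Complex.re_add_im s).symm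
  conv_rhs => rw [h2]
  ring

/-- `(i/2) Σ w_{ab} x_a ∧ y_b`. -/
def KFg (x y : ι → V →L[ℝ] ℂ) (w : Matrix ι ι ℂ) : V →L[ℝ] V →L[ℝ] ℂ :=
  ∑ a, ∑ b, wlg (x a) (y b) (Complex.I / 2 * w a b)

theorem KFg_apply (x y : ι → V →L[ℝ] ℂ) (w : Matrix ι ι ℂ) (u v : V) :
    KFg x y w u v = Complex.I / 2 * ∑ a, ∑ b, w a b * (x a u * y b v - y b u * x a v) := by
  simp only [KFg, sum_apply, wlg_apply, Finset.mul_sum]
  exact Finset.sum_congr rfl fun a _ => Finset.sum_congr rfl fun b _ => by ring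

theorem KFg_smooth (x y : ι → V →L[ℝ] ℂ) {w : V → Matrix ι ι ℂ} {q : V}
    (hw : ∀ a b, ContDiffAt ℝ ∞ (fun q => w q a b) q) :
    ContDiffAt ℝ ∞ (fun q => KFg x y (w q)) q := by
  unfold KFg
  refine ContDiffAt.sum fun a _ => ContDiffAt.sum fun b _ => ?_
  have h : ContDiffAt ℝ ∞ (fun q => Complex.I / 2 * w q a b) q :=
    contDiffAt_const.mul (hw a b)
  have h1 : ContDiffAt ℝ ∞ (fun q => (Complex.I / 2 * w q a b).re) q :=
    Complex.reCLM.contDiff.contDiffAt.comp q h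
  have h2 : ContDiffAt ℝ ∞ (fun q => (Complex.I / 2 * w q a b).im) q :=
    Complex.imCLM.contDiff.contDiffAt.comp q h
  have hb : IsBoundedSMul ℝ (V →L[ℝ] V →L[ℝ] ℂ) :=
    NormedSpace.toIsBoundedSMul (𝕜 := ℝ) (E := V →L[ℝ] V →L[ℝ] ℂ)
  exact (h1.smul contDiffAt_const).add (h2.smul contDiffAt_const)

theorem fderiv_eval {W W' : Type} [NormedAddCommGroup W] [NormedSpace ℝ W]
    [NormedAddCommGroup W'] [NormedSpace ℝ W'] {F : V → W →L[ℝ] W'} {q : V}
    (hF : DifferentiableAt ℝ F q) (u : V) (v : W) :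
    fderiv ℝ (fun q => F q v) q u = fderiv ℝ F q u v := by
  have h : HasFDerivAt (fun q => F q v)
      ((ContinuousLinearMap.apply ℝ W' v).comp (fderiv ℝ F q)) q :=
    (ContinuousLinearMap.apply ℝ W' v).hasFDerivAt.comp q hF.hasFDerivAt
  rw [h.fderiv]
  rfl

theorem fderiv_KFg (x y : ι → V →L[ℝ] ℂ) {w : V → Matrix ι ι ℂ} {q : V}
    (hw : ∀ a b, ContDiffAt ℝ ∞ (fun q => w q a b) q) (u v z : V) :
    fderiv ℝ (fun q => KFg x y (w q)) q u v z = Complex.I / 2 * ∑ a, ∑ b,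
      fderiv ℝ (fun q => w q a b) q u * (x a v * y b z - y b v * x a z) := by
  have h0 : DifferentiableAt ℝ (fun q => KFg x y (w q)) q :=
    (KFg_smooth x y hw).differentiableAt (by simp)
  have h1 : DifferentiableAt ℝ (fun q => KFg x y (w q) v) q :=
    h0.clm_apply (differentiableAt_const v)
  rw [← fderiv_eval h0 u v, ← fderiv_eval h1 u z]
  have h2 : HasFDerivAt (fun q => KFg x y (w q) v z) ((Complex.I / 2) • ∑ a, ∑ b,
      (x a v * y b z - y b v * x a z) • fderiv ℝ (fun q => w q a b) q) q := by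
    have h3 : (fun q => KFg x y (w q) v z) = fun q => Complex.I / 2 * ∑ a, ∑ b,
        w q a b * (x a v * y b z - y b v * x a z) := funext fun q => KFg_apply x y (w q) v z
    rw [h3]
    refine HasFDerivAt.const_mul ?_ _
    refine HasFDerivAt.fun_sum fun a _ => HasFDerivAt.fun_sum fun b _ => ?_
    exact ((hw a b).differentiableAt (by simp)).hasFDerivAt.mul_const _
  rw [h2.fderiv]
  simp only [smul_apply, sum_apply, smul_eq_mul]
  exact congrArg _ (Finset.sum_congr rfl fun a _ => Finset.sum_congr rfl fun b _ => by ring)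

/-! ### Trilinear sums -/

/-- A trilinear sum. -/
def Ts (A : ι → ι → ι → ℂ) (X Y Z : ι → ℂ) : ℂ := ∑ a, ∑ b, ∑ c, A c a b * X c * Y a * Z b

theorem Ts_swapA {A : ι → ι → ι → ℂ} (hA : ∀ a b c, A c a b = A a c b) (X Y Z : ι → ℂ) :
    Ts A X Y Z = Ts A Y X Z := by
  unfold Ts
  rw [Finset.sum_comm]
  conv_rhs => rw [Finset.sum_comm]
  refine Finset.sum_congr rfl fun b _ => ?_
  rw [Finset.sum_comm]
  refine Finset.sum_congr rfl fun c _ => Finset.sum_congr rfl fun a _ => ?_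
  rw [hA a b c]
  ring

theorem Ts_swapB {B : ι → ι → ι → ℂ} (hB : ∀ a b c, B c a b = B b a c) (X Y Z : ι → ℂ) :
    Ts B X Y Z = Ts B Z Y X := by
  unfold Ts
  refine Finset.sum_congr rfl fun a _ => ?_
  rw [Finset.sum_comm]
  refine Finset.sum_congr rfl fun c _ => Finset.sum_congr rfl fun b _ => ?_
  rw [hB a b c]
  ring

end Vale.Agent.P281.H834.TS
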