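import Vale.Agent.P281.H64.TS.Defs
import Vale.Agent.P281.H834.TS.Kg

/-!
# P281, project T-S (helper834): the closed real 2-form of a Kähler metric on the total space
-/

open Set Filter Metric MeasureTheory Vale.Agent.P281.H64
open scoped Topology ContDiff ComplexConjugate ComplexOrder

noncomputable section

namespace Vale.Agent.P281.H834.TS

open Vale.Agent.P281.H64.TK Vale.Agent.P281.H64.TK.TS

variable {p d : ℕ}

/-- The coordinate `z_a` on `ℂ^p × ℂ^d`. -/
def co (a : Fin p ⊕ Fin d) : (Cm p × Cm d) →L[ℝ] ℂ :=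
  Sum.elim
    (fun k => (ContinuousLinearMap.proj (R := ℝ) (φ := fun _ : Fin p => ℂ) k).comp
      (ContinuousLinearMap.fst ℝ (Cm p) (Cm d)))
    (fun l => (ContinuousLinearMap.proj (R := ℝ) (φ := fun _ : Fin d => ℂ) l).comp
      (ContinuousLinearMap.snd ℝ (Cm p) (Cm d))) a

@[simp] theorem co_inl (k : Fin p) (u : Cm p × Cm d) : co (Sum.inl k) u = u.1 k := rfl

@[simp] theorem co_inr (l : Fin d) (u : Cm p × Cm d) : co (Sum.inr l) u = u.2 l := rfl

/-- The conjugate coordinate. -/
def cc (a : Fin p ⊕ Fin d) : (Cm p × Cm d) →L[ℝ] ℂ := Complex.conjCLE.toContinuousLinearMap.comp (co a)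

@[simp] theorem cc_apply (a : Fin p ⊕ Fin d) (u : Cm p × Cm d) : cc a u = conj (co a u) := rfl

/-- `(i/2) Σ w_{ab} dz_a ∧ conj dz_b`. -/
def KF (w : Matrix (Fin p ⊕ Fin d) (Fin p ⊕ Fin d) ℂ) :
    (Cm p × Cm d) →L[ℝ] (Cm p × Cm d) →L[ℝ] ℂ := KFg co cc w

theorem KF_apply (w : Matrix (Fin p ⊕ Fin d) (Fin p ⊕ Fin d) ℂ) (u v : Cm p × Cm d) :
    KF w u v = Complex.I / 2 *
      ∑ a, ∑ b, w a b * (co a u * conj (co b v) - conj (co b u) * co a v) :=
  KFg_apply co cc w u v

theorem KF_alt (w : Matrix (Fin p ⊕ Fin d) (Fin p ⊕ Fin d) ℂ) (u v : Cm p × Cm d) :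
    KF w u v = - KF w v u := by
  rw [KF_apply, KF_apply, ← mul_neg, ← Finset.sum_neg_distrib]
  refine congrArg _ (Finset.sum_congr rfl fun a _ => ?_)
  rw [← Finset.sum_neg_distrib]
  exact Finset.sum_congr rfl fun b _ => by ring

/-- A vector in terms of the basis. -/
theorem vec_eqC (u : Cm p × Cm d) : u = ∑ a, co a u • bv a := by
  rw [Fintype.sum_sum_type]
  refine Prod.ext (funext fun k => ?_) (funext fun l => ?_)
  · simp only [bv, Sum.elim_inl, Sum.elim_inr, co_inl, co_inr, Prod.fst_add, Prod.fst_sum,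
      Prod.smul_mk, smul_zero, add_zero, Finset.sum_const_zero, Finset.sum_apply,
      Pi.smul_apply, smul_eq_mul]
    rw [Finset.sum_eq_single k]
    · simp
    · intro b _ hb
      simp [Pi.single_eq_of_ne hb.symm]
    · simp
  · simp only [bv, Sum.elim_inl, Sum.elim_inr, co_inl, co_inr, Prod.snd_add, Prod.snd_sum,
      Prod.smul_mk, smul_zero, zero_add, Finset.sum_const_zero, Finset.sum_apply,
      Pi.smul_apply, smul_eq_mul]
    rw [Finset.sum_eq_single l]
    · simp
    · intro b _ hb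
      simp [Pi.single_eq_of_ne hb.symm]
    · simp

/-- The coefficient of `dz_c` of a real linear form. -/
def dl (c : Fin p ⊕ Fin d) (L : (Cm p × Cm d) →L[ℝ] ℂ) : ℂ :=
  (L (bv c) - Complex.I * L (Complex.I • bv c)) / 2

/-- The coefficient of `conj dz_c` of a real linear form. -/
def db (c : Fin p ⊕ Fin d) (L : (Cm p × Cm d) →L[ℝ] ℂ) : ℂ :=
  (L (bv c) + Complex.I * L (Complex.I • bv c)) / 2

theorem lin_eq (L : (Cm p × Cm d) →L[ℝ] ℂ) (u : Cm p × Cm d) :
    L u = ∑ c, (dl c L * co c u + db c L * conj (co c u)) := by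
  conv_lhs => rw [vec_eqC u]
  rw [map_sum]
  refine Finset.sum_congr rfl fun c _ => ?_
  have h1 : co c u • bv (p := p) (d := d) c =
      (co c u).re • bv (p := p) (d := d) c + (co c u).im • (Complex.I • bv (p := p) (d := d) c) := by
    conv_lhs => rw [← Complex.re_add_im (co c u)]
    rw [add_smul, mul_smul]
    simp only [← Complex.coe_smul]
  rw [h1, map_add, map_smul, map_smul, Complex.real_smul, Complex.real_smul]
  have h2 : conj (co c u) = ((co c u).re : ℂ) - (co c u).im * Complex.I := by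
    apply Complex.ext <;> simp
  have h3 : co c u = ((co c u).re : ℂ) + (co c u).im * Complex.I := (Complex.re_add_im _).symm
  rw [h2, dl, db]
  nth_rw 3 [h3]
  linear_combination (((co c u).im : ℂ) * L (Complex.I • bv c)) * Complex.I_sq

/-! ### Closedness -/

theorem KF_smooth {w : Cm p × Cm d → Matrix (Fin p ⊕ Fin d) (Fin p ⊕ Fin d) ℂ}
    {q : Cm p × Cm d} (hw : ∀ a b, ContDiffAt ℝ ∞ (fun q => w q a b) q) :
    ContDiffAt ℝ ∞ (fun q => KF (w q)) q := KFg_smooth co cc hw

/-- **`KF W` is closed.** -/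
theorem KF_closed {w : Cm p × Cm d → Matrix (Fin p ⊕ Fin d) (Fin p ⊕ Fin d) ℂ}
    {q : Cm p × Cm d} (hw : ∀ a b, ContDiffAt ℝ ∞ (fun q => w q a b) q)
    (hh : ∀ᶠ q' in 𝓝 q, (w q').IsHermitian)
    (hc : ∀ a b c, dzT c (fun q => w q a b) q = dzT a (fun q => w q c b) q)
    (u v x : Cm p × Cm d) :
    fderiv ℝ (fun q => KF (w q)) q u v x + fderiv ℝ (fun q => KF (w q)) q v x u +
      fderiv ℝ (fun q => KF (w q)) q x u v = 0 := by
  set A : Fin p ⊕ Fin d → Fin p ⊕ Fin d → Fin p ⊕ Fin d → ℂ :=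
    fun c a b => dl c (fderiv ℝ (fun q => w q a b) q) with hA
  set B : Fin p ⊕ Fin d → Fin p ⊕ Fin d → Fin p ⊕ Fin d → ℂ :=
    fun c a b => db c (fderiv ℝ (fun q => w q a b) q) with hB
  have hA1 : ∀ a b c, A c a b = A a c b := fun a b c => hc a b c
  have hAB : ∀ a b c, B c a b = conj (A c b a) := by
    intro a b c
    have h1 : (fun q => w q a b) =ᶠ[𝓝 q] fun q => conj (w q b a) := by
      filter_upwards [hh] with q' hq'
      exact (hq'.apply a b).symm
    have h2 : fderiv ℝ (fun q => w q a b) q =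
        Complex.conjCLE.toContinuousLinearMap.comp (fderiv ℝ (fun q => w q b a) q) := by
      rw [h1.fderiv_eq]
      exact (Complex.conjCLE.toContinuousLinearMap.hasFDerivAt.comp q
        ((hw b a).differentiableAt (by simp)).hasFDerivAt).fderiv
    simp only [hA, hB, h2, dl, db]
    rw [map_div₀, map_ofNat (starRingEnd ℂ) 2]
    simp
  have hB1 : ∀ a b c, B c a b = B b a c := by
    intro a b c
    rw [hAB, hAB, hA1]
  have key : ∀ u v x : Cm p × Cm d, fderiv ℝ (fun q => KF (w q)) q u v x = Complex.I / 2 *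
      (Ts A (fun c => co c u) (fun c => co c v) (fun c => conj (co c x)) -
        Ts A (fun c => co c u) (fun c => co c x) (fun c => conj (co c v)) +
        (Ts B (fun c => conj (co c u)) (fun c => co c v) (fun c => conj (co c x)) -
        Ts B (fun c => conj (co c u)) (fun c => co c x) (fun c => conj (co c v)))) := by
    intro u v x
    refine (fderiv_KFg co cc hw u v x).trans ?_
    simp only [cc_apply, Ts, ← Finset.sum_sub_distrib, ← Finset.sum_add_distrib, Finset.mul_sum]
    refine Finset.sum_congr rfl fun a _ => Finset.sum_congr rfl fun b _ => ?_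
    rw [lin_eq (fderiv ℝ (fun q => w q a b) q) u, Finset.sum_mul, Finset.mul_sum]
    refine Finset.sum_congr rfl fun c _ => ?_
    simp only [hA, hB]
    ring
  rw [key, key, key, Ts_swapA hA1 (fun c => co c u) (fun c => co c v),
    Ts_swapA hA1 (fun c => co c u) (fun c => co c x),
    Ts_swapA hA1 (fun c => co c v) (fun c => co c x),
    Ts_swapB hB1 (fun c => conj (co c u)) (fun c => co c v) (fun c => conj (co c x)),
    Ts_swapB hB1 (fun c => conj (co c u)) (fun c => co c x) (fun c => conj (co c v)),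
    Ts_swapB hB1 (fun c => conj (co c v)) (fun c => co c u) (fun c => conj (co c x))]
  ring

/-! ### Change of sheets -/

/-- `Σ w_{ab} u_a conj v_b`. -/
def Hf (w : Matrix (Fin p ⊕ Fin d) (Fin p ⊕ Fin d) ℂ) (u v : Cm p × Cm d) : ℂ :=
  (fun a => co a u) ⬝ᵥ w.mulVec (fun b => conj (co b v))

theorem KF_eq (w : Matrix (Fin p ⊕ Fin d) (Fin p ⊕ Fin d) ℂ) (u v : Cm p × Cm d) :
    KF w u v = Complex.I / 2 * (Hf w u v - Hf w v u) := by
  rw [KF_apply]
  simp only [Hf, dotProduct, Matrix.mulVec, ← Finset.sum_sub_distrib, Finset.mul_sum]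
  refine Finset.sum_congr rfl fun a _ => Finset.sum_congr rfl fun b _ => ?_
  ring

theorem Hf_change {w J : Matrix (Fin p ⊕ Fin d) (Fin p ⊕ Fin d) ℂ} {u v u' v' : Cm p × Cm d}
    (hu : ∀ a, co a u' = ∑ b, J a b * co b u) (hv : ∀ a, co a v' = ∑ b, J a b * co b v) :
    Hf (J.transpose * w * J.map conj) u v = Hf w u' v' := by
  have h1 : (fun a => co a u') = J.mulVec (fun b => co b u) := funext hu
  have h2 : (fun a => conj (co a v')) = (J.map conj).mulVec (fun b => conj (co b v)) := by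
    funext a
    simp only [hv a, map_sum, map_mul, Matrix.mulVec, dotProduct, Matrix.map_apply]
  unfold Hf
  rw [h1, h2, ← Matrix.mulVec_mulVec, ← Matrix.mulVec_mulVec, Matrix.dotProduct_mulVec,
    Matrix.vecMul_transpose]

theorem KF_change {w J : Matrix (Fin p ⊕ Fin d) (Fin p ⊕ Fin d) ℂ} {u v u' v' : Cm p × Cm d}
    (hu : ∀ a, co a u' = ∑ b, J a b * co b u) (hv : ∀ a, co a v' = ∑ b, J a b * co b v) :
    KF (J.transpose * w * J.map conj) u v = KF w u' v' := by
  rw [KF_eq, KF_eq, Hf_change hu hv, Hf_change hv hu]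

/-- The derivative of `(t, z) ↦ (t, θ (t, z))` in coordinates. -/
theorem co_fderiv {θ : Cm p × Cm d → Cm d} {q : Cm p × Cm d} (hθ : AnalyticAt ℂ θ q)
    (u : Cm p × Cm d) (a : Fin p ⊕ Fin d) :
    co a (fderiv ℝ (fun q : Cm p × Cm d => (q.1, θ q)) q u) = ∑ b, jacT θ q a b * co b u := by
  have hd : DifferentiableAt ℂ θ q := hθ.differentiableAt
  have h1 : HasFDerivAt (fun q : Cm p × Cm d => (q.1, θ q))
      ((ContinuousLinearMap.fst ℝ (Cm p) (Cm d)).prod ((fderiv ℂ θ q).restrictScalars ℝ)) q :=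
    hasFDerivAt_fst.prodMk (hd.hasFDerivAt.restrictScalars ℝ)
  rw [h1.fderiv]
  rcases a with k | l
  · have h2 := congrArg (fun x : Cm p × Cm d => x.1 k) (vec_eqC u)
    simp only [Prod.fst_sum, Finset.sum_apply, Prod.smul_fst, Pi.smul_apply, smul_eq_mul] at h2
    simp only [co_inl, ContinuousLinearMap.prod_apply, ContinuousLinearMap.coe_fst', jacT,
      Matrix.of_apply, Sum.elim_inl]
    refine h2.trans (Finset.sum_congr rfl fun b _ => mul_comm _ _)
  · have h2 := congrArg (fun x : Cm p × Cm d => (fderiv ℂ θ q x) l) (vec_eqC u)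
    simp only [map_sum, map_smul, Finset.sum_apply, Pi.smul_apply, smul_eq_mul] at h2
    simp only [co_inr, ContinuousLinearMap.prod_apply, ContinuousLinearMap.coe_restrictScalars',
      jacT, Matrix.of_apply, Sum.elim_inr]
    refine h2.trans (Finset.sum_congr rfl fun b _ => mul_comm _ _)

/-- On the fibres. -/
theorem KF_fib (w : Matrix (Fin p ⊕ Fin 2) (Fin p ⊕ Fin 2) ℂ) (u v : Cm 2) :
    KF w (0, u) (0, v) = kf2 (Matrix.of fun j k => w (Sum.inr j) (Sum.inr k)) u v := by
  rw [KF_apply]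
  have h : kf2 (Matrix.of fun j k => w (Sum.inr j) (Sum.inr k)) u v = Complex.I / 2 *
      ∑ j, ∑ k, w (Sum.inr j) (Sum.inr k) * (u j * conj (v k) - v j * conj (u k)) := rfl
  rw [h]
  simp only [Fintype.sum_sum_type, co_inl, co_inr, Pi.zero_apply, map_zero, zero_mul, mul_zero,
    sub_zero, Finset.sum_const_zero, zero_add]
  refine congrArg _ (Finset.sum_congr rfl fun j _ => Finset.sum_congr rfl fun k _ => ?_)
  ring

end Vale.Agent.P281.H834.TS
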