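import Vale.Agent.P281.H834.TS.Kg
import Vale.Agent.P281.H89.TS.Basic

/-!
# P281, project T-S (helper834): linear combinations of exact forms and of Čech data
-/

open Set Filter Metric MeasureTheory Vale.Agent.P281.H64
open scoped Topology ContDiff ComplexConjugate ComplexOrder

noncomputable section

namespace Vale.Agent.P281.H834.TS

open Vale.Agent.P281.H64.TK Vale.Agent.P281.H64.TK.TS

variable {d : ℕ} {E Γ : Type} [TopologicalSpace E] [Group Γ] [MulAction Γ E] {S : Sheets d E Γ}

theorem f1_sub {V : Set E} {β β' : Fin S.N → Cm d → L1 d} (h : F1On S V β)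
    (h' : F1On S V β') : F1On S V (fun i z => β i z - β' i z) := by
  refine ⟨fun i z hz hx => (h.smooth i z hz hx).sub (h'.smooth i z hz hx), ?_⟩
  intro i j z hz z' hz' hx ψ hψ v
  simp only [sub_apply]
  rw [h.change i j z hz z' hz' hx ψ hψ v, h'.change i j z hz z' hz' hx ψ hψ v]

theorem d1_sub {V : Set E} {β β' : Fin S.N → Cm d → L1 d} {α α' : Fin S.N → Cm d → L2 d}
    (hβ : F1On S V β) (hβ' : F1On S V β') (h : IsD1 S V β α) (h' : IsD1 S V β' α') :
    IsD1 S V (fun i z => β i z - β' i z) (fun i z => α i z - α' i z) := by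
  intro i z hz hx u v
  have e1 : fderiv ℝ (fun z => β i z - β' i z) z = fderiv ℝ (β i) z - fderiv ℝ (β' i) z :=
    fderiv_fun_sub ((hβ.smooth i z hz hx).differentiableAt (by simp))
      ((hβ'.smooth i z hz hx).differentiableAt (by simp))
  rw [e1]
  simp only [sub_apply]
  have h1 := h i z hz hx u v
  have h2 := h' i z hz hx u v
  linear_combination h1 - h2

theorem sm_sub {V : Set E} {g g' : E → ℂ} (h : SmOn S V g) (h' : SmOn S V g') :
    SmOn S V (fun e => g e - g' e) :=
  fun i z hz hx => (h i z hz hx).sub (h' i z hz hx)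

theorem d0_sub {V : Set E} {g g' : E → ℂ} {β β' : Fin S.N → Cm d → L1 d}
    (hg : SmOn S V g) (hg' : SmOn S V g') (h : IsD0 S V g β) (h' : IsD0 S V g' β') :
    IsD0 S V (fun e => g e - g' e) (fun i z => β i z - β' i z) := by
  intro i z hz hx
  have e1 : fderiv ℝ (fun u => g (S.σ i u) - g' (S.σ i u)) z =
      fderiv ℝ (fun u => g (S.σ i u)) z - fderiv ℝ (fun u => g' (S.σ i u)) z :=
    fderiv_fun_sub ((hg i z hz hx).differentiableAt (by simp))
      ((hg' i z hz hx).differentiableAt (by simp))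
  simp only [e1]
  rw [h i z hz hx, h' i z hz hx]

theorem ex_sub {α α' : Fin S.N → Cm d → L2 d} (h : Exact S α) (h' : Exact S α') :
    Exact S (fun i z => α i z - α' i z) := by
  obtain ⟨β, h1, h2⟩ := h
  obtain ⟨β', h3, h4⟩ := h'
  exact ⟨_, f1_sub h1 h3, d1_sub h1 h3 h2 h4⟩

theorem exact_zero : Exact S (fun _ _ => 0) := by
  refine ⟨fun _ _ => 0, ⟨fun _ _ _ _ => contDiffAt_const, fun _ _ _ _ _ _ _ _ _ _ => rfl⟩, ?_⟩
  intro i z _ _ u v
  simp

theorem fderiv_ev2 {V : Type} [NormedAddCommGroup V] [NormedSpace ℝ V]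
    {a : V → V →L[ℝ] V →L[ℝ] ℂ} {z : V} (ha : DifferentiableAt ℝ a z) (u v w : V) :
    fderiv ℝ (fun z => a z v w) z u = fderiv ℝ a z u v w := by
  have h1 : DifferentiableAt ℝ (fun q => a q v) z := ha.clm_apply (differentiableAt_const v)
  rw [← fderiv_eval ha u v, ← fderiv_eval h1 u w]

theorem cl2_sub {α α' : Fin S.N → Cm d → L2 d} (h : Cl2 S α) (h' : Cl2 S α') :
    Cl2 S (fun i z => α i z - α' i z) := by
  have hd : ∀ i, ∀ z ∈ ball (0 : Cm d) 3, DifferentiableAt ℝ (α i) z := fun i z hz =>
    (h.smooth i z hz (mem_univ _)).differentiableAt (by simp)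
  have hd' : ∀ i, ∀ z ∈ ball (0 : Cm d) 3, DifferentiableAt ℝ (α' i) z := fun i z hz =>
    (h'.smooth i z hz (mem_univ _)).differentiableAt (by simp)
  refine ⟨⟨fun i z hz hx => (h.smooth i z hz hx).sub (h'.smooth i z hz hx), ?_, ?_⟩, ?_⟩
  · intro i z hz hx u v
    simp only [sub_apply]
    rw [h.alt i z hz hx u v, h'.alt i z hz hx u v]
    ring
  · intro i j z hz z' hz' hx ψ hψ u v
    simp only [sub_apply]
    rw [h.change i j z hz z' hz' hx ψ hψ u v, h'.change i j z hz z' hz' hx ψ hψ u v]
  · intro i z hz u v w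
    have hsm : ContDiffAt ℝ ∞ (fun z => α i z - α' i z) z :=
      (h.smooth i z hz (mem_univ _)).sub (h'.smooth i z hz (mem_univ _))
    have hs : DifferentiableAt ℝ (fun z => α i z - α' i z) z := hsm.differentiableAt (by simp)
    have key : ∀ u v w, fderiv ℝ (fun z => α i z - α' i z) z u v w =
        fderiv ℝ (α i) z u v w - fderiv ℝ (α' i) z u v w := by
      intro u v w
      rw [← fderiv_ev2 hs, ← fderiv_ev2 (hd i z hz), ← fderiv_ev2 (hd' i z hz)]
      have h1 : DifferentiableAt ℝ (fun z => α i z v w) z :=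
        ((hd i z hz).clm_apply (differentiableAt_const v)).clm_apply (differentiableAt_const w)
      have h2 : DifferentiableAt ℝ (fun z => α' i z v w) z :=
        ((hd' i z hz).clm_apply (differentiableAt_const v)).clm_apply (differentiableAt_const w)
      have h3 : fderiv ℝ (fun z => α i z v w - α' i z v w) z =
          fderiv ℝ (fun z => α i z v w) z - fderiv ℝ (fun z => α' i z v w) z :=
        fderiv_fun_sub h1 h2
      simp only [sub_apply]
      rw [h3]
      rfl
    rw [key, key, key]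
    have h1 := h.closed i z hz u v w
    have h2 := h'.closed i z hz u v w
    linear_combination h1 - h2

end Vale.Agent.P281.H834.TS
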