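import Vale.Agent.P281.H89.TS.Basic

/-!
# P281, project T-S (helper834): inverses of the sheets of a family, transition maps
-/

open Set Filter Metric MeasureTheory Vale.Agent.P281.H64
open scoped Topology ContDiff ComplexConjugate ComplexOrder

noncomputable section

namespace Vale.Agent.P281.H834.TS

open Vale.Agent.P281.H64.TK Vale.Agent.P281.H64.TK.TS

variable {p d : ℕ} {E Γ : Type} [TopologicalSpace E] [Group Γ] [MulAction Γ E]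

open Classical in
/-- The inverse of the sheet `i` of the manifold number `t`. -/
def iv (𝓕 : Fam p d E Γ) (i : Fin 𝓕.N) (t : Cm p) (e : E) : Cm d :=
  if h : ∃ z ∈ ball (0 : Cm d) 3, 𝓕.σ i t z = e then h.choose else 0

/-- The transition map from the sheet `i` to the sheet `j`. -/
def tr (𝓕 : Fam p d E Γ) (i j : Fin 𝓕.N) (q : Cm p × Cm d) : Cm d := iv 𝓕 j q.1 (𝓕.σ i q.1 q.2)

variable (𝓕 : Fam p d E Γ)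

theorem fam_inj {i : Fin 𝓕.N} {t : Cm p} (ht : t ∈ 𝓕.T) {z w : Cm d}
    (hz : z ∈ ball (0 : Cm d) 3) (hw : w ∈ ball (0 : Cm d) 3) (h : 𝓕.σ i t z = 𝓕.σ i t w) :
    z = w :=
  (𝓕.inj i t ht z hz w hw 1 (by rw [one_smul]; exact h)).2

theorem iv_σ {i : Fin 𝓕.N} {t : Cm p} (ht : t ∈ 𝓕.T) {z : Cm d} (hz : z ∈ ball (0 : Cm d) 3) :
    iv 𝓕 i t (𝓕.σ i t z) = z := by
  have h : ∃ w ∈ ball (0 : Cm d) 3, 𝓕.σ i t w = 𝓕.σ i t z := ⟨z, hz, rfl⟩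
  rw [iv, dif_pos h]
  exact fam_inj 𝓕 ht h.choose_spec.1 hz h.choose_spec.2

/-- The sheets are jointly continuous. -/
theorem σ_tendsto {i : Fin 𝓕.N} {t : Cm p} (ht : t ∈ 𝓕.T) {z : Cm d}
    (hz : z ∈ ball (0 : Cm d) 3) :
    Tendsto (fun q : Cm p × Cm d => 𝓕.σ i q.1 q.2) (𝓝 (t, z)) (𝓝 (𝓕.σ i t z)) := by
  have h : Tendsto (fun q : Cm p × Cm d => (q.1, 𝓕.σ i q.1 q.2)) (𝓝 (t, z))
      (𝓝 (t, 𝓕.σ i t z)) := (𝓕.map_nhds i t ht z hz).le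
  exact (continuous_snd.tendsto _).comp h

/-- Near a point of the sheet `i`, at nearby times, the inverse is near `z`. -/
theorem iv_eventually {i : Fin 𝓕.N} {t : Cm p} (ht : t ∈ 𝓕.T) {z : Cm d}
    (hz : z ∈ ball (0 : Cm d) 3) {O : Set (Cm d)} (hO : O ∈ 𝓝 z) :
    ∀ᶠ q in 𝓝 (t, 𝓕.σ i t z), q.1 ∈ 𝓕.T ∧ iv 𝓕 i q.1 q.2 ∈ O ∧
      iv 𝓕 i q.1 q.2 ∈ ball (0 : Cm d) 3 ∧ 𝓕.σ i q.1 (iv 𝓕 i q.1 q.2) = q.2 := by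
  rw [← 𝓕.map_nhds i t ht z hz, eventually_map]
  have h1 : ∀ᶠ q : Cm p × Cm d in 𝓝 (t, z), q.1 ∈ 𝓕.T :=
    (continuous_fst.tendsto (t, z)).eventually (𝓕.isOpen.mem_nhds ht)
  have h2 : ∀ᶠ q : Cm p × Cm d in 𝓝 (t, z), q.2 ∈ O :=
    (continuous_snd.tendsto (t, z)).eventually hO
  have h3 : ∀ᶠ q : Cm p × Cm d in 𝓝 (t, z), q.2 ∈ ball (0 : Cm d) 3 :=
    (continuous_snd.tendsto (t, z)).eventually (isOpen_ball.mem_nhds hz)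
  filter_upwards [h1, h2, h3] with q hq1 hq2 hq3
  rw [iv_σ 𝓕 hq1 hq3]
  exact ⟨hq1, hq2, hq3, rfl⟩

theorem iv_tendsto {i : Fin 𝓕.N} {t : Cm p} (ht : t ∈ 𝓕.T) {z : Cm d}
    (hz : z ∈ ball (0 : Cm d) 3) :
    Tendsto (fun q : Cm p × E => iv 𝓕 i q.1 q.2) (𝓝 (t, 𝓕.σ i t z)) (𝓝 z) := by
  intro O hO
  rw [mem_map]
  exact (iv_eventually 𝓕 ht hz hO).mono fun q hq => hq.2.1

theorem tr_eq {i j : Fin 𝓕.N} {t : Cm p} (ht : t ∈ 𝓕.T) {z w : Cm d}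
    (hw : w ∈ ball (0 : Cm d) 3) (h : 𝓕.σ i t z = 𝓕.σ j t w) : tr 𝓕 i j (t, z) = w := by
  unfold tr
  simp only
  rw [h, iv_σ 𝓕 ht hw]

theorem tr_self {i : Fin 𝓕.N} {t : Cm p} (ht : t ∈ 𝓕.T) {z : Cm d}
    (hz : z ∈ ball (0 : Cm d) 3) : tr 𝓕 i i (t, z) = z := tr_eq 𝓕 ht hz rfl

/-- Near `(t, z)`, the transition map is defined. -/
theorem tr_eventually {i j : Fin 𝓕.N} {t : Cm p} (ht : t ∈ 𝓕.T) {z w : Cm d}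
    (hz : z ∈ ball (0 : Cm d) 3) (hw : w ∈ ball (0 : Cm d) 3) (h : 𝓕.σ i t z = 𝓕.σ j t w)
    {O : Set (Cm d)} (hO : O ∈ 𝓝 w) :
    ∀ᶠ q in 𝓝 (t, z), q.1 ∈ 𝓕.T ∧ tr 𝓕 i j q ∈ O ∧ tr 𝓕 i j q ∈ ball (0 : Cm d) 3 ∧
      𝓕.σ j q.1 (tr 𝓕 i j q) = 𝓕.σ i q.1 q.2 := by
  have h1 : Tendsto (fun q : Cm p × Cm d => (q.1, 𝓕.σ i q.1 q.2)) (𝓝 (t, z))
      (𝓝 (t, 𝓕.σ j t w)) := by
    rw [← h]
    exact (𝓕.map_nhds i t ht z hz).le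
  exact h1.eventually (iv_eventually 𝓕 ht hw hO)

/-- The transition maps are jointly holomorphic. -/
theorem tr_analytic {i j : Fin 𝓕.N} {t : Cm p} (ht : t ∈ 𝓕.T) {z w : Cm d}
    (hz : z ∈ ball (0 : Cm d) 3) (hw : w ∈ ball (0 : Cm d) 3) (h : 𝓕.σ i t z = 𝓕.σ j t w) :
    ∃ θ : Cm p × Cm d → Cm d, AnalyticAt ℂ θ (t, z) ∧ θ (t, z) = w ∧
      (∀ᶠ q in 𝓝 (t, z), 𝓕.σ i q.1 q.2 = (1 : Γ) • 𝓕.σ j q.1 (θ q)) ∧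
      tr 𝓕 i j =ᶠ[𝓝 (t, z)] θ := by
  obtain ⟨θ, h1, h2, h3⟩ := 𝓕.hol i j t ht z hz w hw 1 (by rw [one_smul]; exact h)
  refine ⟨θ, h1, h2, h3, ?_⟩
  have h4 : ∀ᶠ q : Cm p × Cm d in 𝓝 (t, z), q.1 ∈ 𝓕.T :=
    (continuous_fst.tendsto (t, z)).eventually (𝓕.isOpen.mem_nhds ht)
  have h5 : ∀ᶠ q : Cm p × Cm d in 𝓝 (t, z), θ q ∈ ball (0 : Cm d) 3 := by
    have : Tendsto θ (𝓝 (t, z)) (𝓝 w) := by
      rw [← h2]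
      exact h1.continuousAt
    exact this.eventually (isOpen_ball.mem_nhds hw)
  filter_upwards [h3, h4, h5] with q hq3 hq4 hq5
  rw [one_smul] at hq3
  unfold tr
  rw [hq3, iv_σ 𝓕 hq4 hq5]

theorem tr_analyticAt {i j : Fin 𝓕.N} {t : Cm p} (ht : t ∈ 𝓕.T) {z w : Cm d}
    (hz : z ∈ ball (0 : Cm d) 3) (hw : w ∈ ball (0 : Cm d) 3) (h : 𝓕.σ i t z = 𝓕.σ j t w) :
    AnalyticAt ℂ (tr 𝓕 i j) (t, z) := by
  obtain ⟨θ, h1, -, -, h3⟩ := tr_analytic 𝓕 ht hz hw h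
  exact h1.congr h3.symm

/-- Between different times, the transition maps are smooth. -/
theorem iv_smooth {i j : Fin 𝓕.N} {t s : Cm p} (ht : t ∈ 𝓕.T) (hs : s ∈ 𝓕.T) {z w : Cm d}
    (hz : z ∈ ball (0 : Cm d) 3) (hw : w ∈ ball (0 : Cm d) 3) (h : 𝓕.σ i t z = 𝓕.σ j s w) :
    ContDiffAt ℝ ∞ (fun u => iv 𝓕 j s (𝓕.σ i t u)) z ∧
      ∀ᶠ u in 𝓝 z, 𝓕.σ i t u = 𝓕.σ j s (iv 𝓕 j s (𝓕.σ i t u)) := by
  obtain ⟨ψ, h1, h2, -, h4⟩ := 𝓕.smooth i j t ht s hs z hz w hw 1 (by rw [one_smul]; exact h)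
  have h5 : ∀ᶠ u in 𝓝 z, ψ u ∈ ball (0 : Cm d) 3 := by
    have : Tendsto ψ (𝓝 z) (𝓝 w) := by
      rw [← h2]
      exact h1.continuousAt
    exact this.eventually (isOpen_ball.mem_nhds hw)
  have h6 : ∀ᶠ u in 𝓝 z, iv 𝓕 j s (𝓕.σ i t u) = ψ u := by
    filter_upwards [h4, h5] with u hu hu'
    rw [one_smul] at hu
    rw [hu, iv_σ 𝓕 hs hu']
  refine ⟨h1.congr_of_eventuallyEq h6, ?_⟩
  filter_upwards [h4, h6] with u hu hu'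
  rw [one_smul] at hu
  rw [hu', hu]

end Vale.Agent.P281.H834.TS
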