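import Vale.Agent.P281.H834.TS.Inv

/-!
# P281, project T-S (helper834): a good covering of the fibre number `t₀`, for `t` near `t₀`
-/

open Set Filter Metric MeasureTheory Vale.Agent.P281.H64
open scoped Topology ContDiff ComplexConjugate ComplexOrder

noncomputable section

namespace Vale.Agent.P281.H834.TS

open Vale.Agent.P281.H64.TK Vale.Agent.P281.H64.TK.TS Vale.Agent.P281.H89.TS

variable {p d : ℕ} {E Γ : Type} [TopologicalSpace E] [Group Γ] [MulAction Γ E]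

/-- The compact Euclidean ball. -/
def cb (c : Cm d) (r : ℝ) : Set (Cm d) := {z | ∑ k, ‖z k - c k‖ ^ 2 ≤ r ^ 2}

theorem isClosed_cb (c : Cm d) (r : ℝ) : IsClosed (cb c r) := by
  unfold cb
  exact isClosed_le (by fun_prop) continuous_const

theorem isCompact_cb (c : Cm d) (r : ℝ) : IsCompact (cb c r) := by
  refine Metric.isCompact_of_isClosed_isBounded (isClosed_cb c r) ?_
  refine (Metric.isBounded_closedBall (x := c) (r := |r|)).subset ?_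
  intro z hz
  rw [mem_closedBall, dist_pi_le_iff (abs_nonneg r)]
  intro k
  rw [dist_eq_norm]
  have h1 : ‖z k - c k‖ ^ 2 ≤ r ^ 2 :=
    (Finset.single_le_sum (f := fun k => ‖z k - c k‖ ^ 2) (fun _ _ => by positivity)
      (Finset.mem_univ k)).trans hz
  have h2 := sq_le_sq.mp h1
  rwa [abs_of_nonneg (norm_nonneg _)] at h2

theorem eb_sub_cb (c : Cm d) (r : ℝ) : eb c r ⊆ cb c r := by
  intro z hz
  simp only [cb, eb, mem_ofPred_eq] at hz ⊢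
  exact hz.le

theorem closure_eb (c : Cm d) (r : ℝ) : closure (eb c r) ⊆ cb c r :=
  (isClosed_cb c r).closure_subset_iff.mpr (eb_sub_cb c r)

theorem cb_sub_eb (c : Cm d) {r : ℝ} (hr : 0 < r) : cb c r ⊆ eb c (2 * r) := by
  intro z hz
  simp only [cb, eb, mem_ofPred_eq] at hz ⊢
  nlinarith

section

variable (𝓕 : Fam p d E Γ) {t₀ : Cm p} (ht₀ : t₀ ∈ 𝓕.T) {A : Type} (G : Good (𝓕.at t₀ ht₀) A)

/-- The sheet of the member `a` of the covering. -/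
def sh (a : A) : Fin 𝓕.N := G.i a

/-- The trace of `U b` in the ball of `U a`. -/
def tc (a b : A) : Set (Cm d) :=
  {z | z ∈ eb (G.c a) (G.r a) ∧ 𝓕.σ (sh 𝓕 ht₀ G a) t₀ z ∈ G.U b}

theorem convex_tc (a b : A) : Convex ℝ (tc 𝓕 ht₀ G a b) := G.conv a b

theorem tc_sub (a b : A) : tc 𝓕 ht₀ G a b ⊆ eb (G.c a) (G.r a) := fun _ hz => hz.1

theorem eb2_sub (a : A) : eb (G.c a) (2 * G.r a) ⊆ ball (0 : Cm d) 3 :=
  (G.sub a).trans (ball_subset_ball (by norm_num))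

theorem cb_sub_ball (a : A) : cb (G.c a) (G.r a) ⊆ ball (0 : Cm d) 3 :=
  (cb_sub_eb _ (G.pos a)).trans (eb2_sub 𝓕 ht₀ G a)

theorem closure_tc_sub (a b : A) : closure (tc 𝓕 ht₀ G a b) ⊆ cb (G.c a) (G.r a) :=
  (closure_mono (tc_sub 𝓕 ht₀ G a b)).trans (closure_eb _ _)

theorem isCompact_closure_tc (a b : A) : IsCompact (closure (tc 𝓕 ht₀ G a b)) :=
  (isCompact_cb _ _).of_isClosed_subset isClosed_closure (closure_tc_sub 𝓕 ht₀ G a b)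

/-- A point of the closure of the trace is in the sheet of `b`. -/
theorem closure_tc [T2Space E] {a b : A} {z : Cm d} (hz : z ∈ closure (tc 𝓕 ht₀ G a b)) :
    ∃ w ∈ cb (G.c b) (G.r b), 𝓕.σ (sh 𝓕 ht₀ G a) t₀ z = 𝓕.σ (sh 𝓕 ht₀ G b) t₀ w := by
  have hcomp : IsCompact (𝓕.σ (sh 𝓕 ht₀ G b) t₀ '' cb (G.c b) (G.r b)) := by
    refine (isCompact_cb _ _).image_of_continuousOn ?_
    intro w hw
    have h := (𝓕.map_nhds' (sh 𝓕 ht₀ G b) t₀ ht₀ w (cb_sub_ball 𝓕 ht₀ G b hw)).le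
    exact (show ContinuousAt (𝓕.σ (sh 𝓕 ht₀ G b) t₀) w from h).continuousWithinAt
  have hz3 : z ∈ ball (0 : Cm d) 3 := cb_sub_ball 𝓕 ht₀ G a (closure_tc_sub 𝓕 ht₀ G a b hz)
  have hcont : ContinuousAt (𝓕.σ (sh 𝓕 ht₀ G a) t₀) z :=
    (𝓕.map_nhds' (sh 𝓕 ht₀ G a) t₀ ht₀ z hz3).le
  have h1 : 𝓕.σ (sh 𝓕 ht₀ G a) t₀ z ∈
      closure (𝓕.σ (sh 𝓕 ht₀ G b) t₀ '' cb (G.c b) (G.r b)) := by
    refine closure_mono ?_ (mem_closure_image hcont hz)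
    rintro _ ⟨w, hw, rfl⟩
    obtain ⟨x, hx, hxw⟩ := hw.2
    exact ⟨x, eb_sub_cb _ _ hx, hxw⟩
  rw [hcomp.isClosed.closure_eq] at h1
  obtain ⟨w, hw, h2⟩ := h1
  exact ⟨w, hw, h2.symm⟩

/-- The transition map from the sheet of `a` to the sheet of `b`. -/
def ta (a b : A) (q : Cm p × Cm d) : Cm d := tr 𝓕 (sh 𝓕 ht₀ G a) (sh 𝓕 ht₀ G b) q

/-- The good event for the pair `(a, b)`. -/
def Ev (a b : A) (q : Cm p × Cm d) : Prop :=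
  q.1 ∈ 𝓕.T ∧ q.2 ∈ eb (G.c a) (2 * G.r a) ∧ ta 𝓕 ht₀ G a b q ∈ eb (G.c b) (2 * G.r b) ∧
    𝓕.σ (sh 𝓕 ht₀ G b) q.1 (ta 𝓕 ht₀ G a b q) = 𝓕.σ (sh 𝓕 ht₀ G a) q.1 q.2

theorem ev_near [T2Space E] {a b : A} {z : Cm d} (hz : z ∈ closure (tc 𝓕 ht₀ G a b)) :
    ∀ᶠ q in 𝓝 (t₀, z), Ev 𝓕 ht₀ G a b q := by
  obtain ⟨w, hw, h⟩ := closure_tc 𝓕 ht₀ G hz
  have hz1 : z ∈ cb (G.c a) (G.r a) := closure_tc_sub 𝓕 ht₀ G a b hz
  have h1 := tr_eventually 𝓕 ht₀ (cb_sub_ball 𝓕 ht₀ G a hz1) (cb_sub_ball 𝓕 ht₀ G b hw) h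
    ((isOpen_eb _ _).mem_nhds (cb_sub_eb _ (G.pos b) hw))
  have h2 : ∀ᶠ q : Cm p × Cm d in 𝓝 (t₀, z), q.2 ∈ eb (G.c a) (2 * G.r a) :=
    (continuous_snd.tendsto (t₀, z)).eventually
      ((isOpen_eb _ _).mem_nhds (cb_sub_eb _ (G.pos a) hz1))
  filter_upwards [h1, h2] with q hq hq2
  exact ⟨hq.1, hq2, hq.2.1, hq.2.2.2⟩

/-- A tube lemma. -/
theorem tube {P : Cm p × Cm d → Prop} {K : Set (Cm d)} (hK : IsCompact K) {t : Cm p}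
    (h : ∀ z ∈ K, ∀ᶠ q in 𝓝 (t, z), P q) :
    ∃ δ > 0, ∃ ε > 0, ∀ s ∈ ball t ε, ∀ z ∈ thickening δ K, P (s, z) := by
  have h1 : ({t} : Set (Cm p)) ×ˢ K ⊆ interior {q | P q} := by
    rintro ⟨s, z⟩ ⟨hs, hz⟩
    obtain rfl : s = t := hs
    exact mem_interior_iff_mem_nhds.mpr (h z hz)
  obtain ⟨u, v, hu, hv, htu, hKv, huv⟩ :=
    generalized_tube_lemma (isCompact_singleton (x := t)) hK isOpen_interior h1
  obtain ⟨ε, hε, hε'⟩ := Metric.isOpen_iff.mp hu t (htu rfl)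
  obtain ⟨δ, hδ, hδ'⟩ := hK.exists_thickening_subset_open hv hKv
  exact ⟨δ, hδ, ε, hε, fun s hs z hz => interior_subset (huv ⟨hε' hs, hδ' hz⟩)⟩

/-- `tube`, for finitely many events. -/
theorem tube_fin {ι : Type} [Fintype ι] {P : ι → Cm p × Cm d → Prop} {K : ι → Set (Cm d)}
    (hK : ∀ i, IsCompact (K i)) {t : Cm p} (h : ∀ i, ∀ z ∈ K i, ∀ᶠ q in 𝓝 (t, z), P i q) :
    ∃ δ > 0, ∃ ε > 0, ∀ i, ∀ s ∈ ball t ε, ∀ z ∈ thickening δ (K i), P i (s, z) := by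
  choose δ hδ ε hε H using fun i => tube (hK i) (h i)
  rcases isEmpty_or_nonempty ι with hι | hι
  · exact ⟨1, one_pos, 1, one_pos, fun i => (hι.false i).elim⟩
  obtain ⟨i₁, -, h1⟩ := Finset.exists_min_image Finset.univ δ Finset.univ_nonempty
  obtain ⟨i₂, -, h2⟩ := Finset.exists_min_image Finset.univ ε Finset.univ_nonempty
  refine ⟨δ i₁, hδ i₁, ε i₂, hε i₂, fun i s hs z hz => ?_⟩
  exact H i s (ball_subset_ball (h2 i (Finset.mem_univ i)) hs) z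
    (thickening_mono (h1 i (Finset.mem_univ i)) _ hz)

/-- **The geometry near `t₀`.** -/
theorem exists_tube [T2Space E] [Fintype A] : ∃ δ > 0, ∃ δ' > 0, ∃ ε > 0, δ' ≤ δ ∧
    ball t₀ ε ⊆ 𝓕.T ∧
    (∀ a b, ∀ t ∈ ball t₀ ε, ∀ z ∈ thickening δ (tc 𝓕 ht₀ G a b), Ev 𝓕 ht₀ G a b (t, z)) ∧
    (∀ a b e, ∀ t ∈ ball t₀ ε, ∀ z ∈ thickening δ' (tc 𝓕 ht₀ G a b ∩ tc 𝓕 ht₀ G a e),
      ta 𝓕 ht₀ G a b (t, z) ∈ thickening δ (tc 𝓕 ht₀ G b e)) ∧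
    ∀ a, ∀ t ∈ ball t₀ ε, ∀ z ∈ eb (G.c a) (G.r a),
      iv 𝓕 (sh 𝓕 ht₀ G a) t (𝓕.σ (sh 𝓕 ht₀ G a) t₀ z) ∈ ball z δ' ∧
      iv 𝓕 (sh 𝓕 ht₀ G a) t (𝓕.σ (sh 𝓕 ht₀ G a) t₀ z) ∈ eb (G.c a) (2 * G.r a) ∧
      𝓕.σ (sh 𝓕 ht₀ G a) t (iv 𝓕 (sh 𝓕 ht₀ G a) t (𝓕.σ (sh 𝓕 ht₀ G a) t₀ z)) =
        𝓕.σ (sh 𝓕 ht₀ G a) t₀ z := by
  obtain ⟨δ, hδ, ε₁, hε₁, H1⟩ := tube_fin (ι := A × A)
    (P := fun i q => Ev 𝓕 ht₀ G i.1 i.2 q) (K := fun i => closure (tc 𝓕 ht₀ G i.1 i.2))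
    (t := t₀) (fun i => isCompact_closure_tc 𝓕 ht₀ G i.1 i.2)
    (fun i z hz => ev_near 𝓕 ht₀ G hz)
  have key : ∀ i : A × A × A, ∀ z ∈ closure (tc 𝓕 ht₀ G i.1 i.2.1 ∩ tc 𝓕 ht₀ G i.1 i.2.2),
      ∀ᶠ q in 𝓝 (t₀, z), ta 𝓕 ht₀ G i.1 i.2.1 q ∈ thickening δ (tc 𝓕 ht₀ G i.2.1 i.2.2) := by
    rintro ⟨a, b, e⟩ z hz
    simp only at hz ⊢
    have hzb : z ∈ closure (tc 𝓕 ht₀ G a b) := closure_mono inter_subset_left hz
    obtain ⟨w, hw, h⟩ := closure_tc 𝓕 ht₀ G hzb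
    have hz3 := cb_sub_ball 𝓕 ht₀ G a (closure_tc_sub 𝓕 ht₀ G a b hzb)
    have hw3 := cb_sub_ball 𝓕 ht₀ G b hw
    have hwz : ta 𝓕 ht₀ G a b (t₀, z) = w := tr_eq 𝓕 ht₀ hw3 h
    have hcont : Tendsto (ta 𝓕 ht₀ G a b) (𝓝 (t₀, z)) (𝓝 w) := by
      intro O hO
      rw [mem_map]
      exact (tr_eventually 𝓕 ht₀ hz3 hw3 h hO).mono fun q hq => hq.2.1
    have hwcl : w ∈ closure (tc 𝓕 ht₀ G b e) := by
      have hc2 : ContinuousAt (fun u => ta 𝓕 ht₀ G a b (t₀, u)) z := by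
        have h1 : Tendsto (fun u : Cm d => (t₀, u)) (𝓝 z) (𝓝 (t₀, z)) :=
          (by fun_prop : Continuous fun u : Cm d => (t₀, u)).tendsto z
        have h2 := hcont.comp h1
        rw [← hwz] at h2
        exact h2
      have h3 := mem_closure_image hc2 hz
      rw [hwz] at h3
      refine closure_mono ?_ h3
      rintro _ ⟨u, ⟨hu1, hu2⟩, rfl⟩
      obtain ⟨x, hx, hxu⟩ := hu1.2
      have hx3 : x ∈ ball (0 : Cm d) 3 := cb_sub_ball 𝓕 ht₀ G b (eb_sub_cb _ _ hx)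
      have hxu' : 𝓕.σ (sh 𝓕 ht₀ G a) t₀ u = 𝓕.σ (sh 𝓕 ht₀ G b) t₀ x := hxu.symm
      have : ta 𝓕 ht₀ G a b (t₀, u) = x := tr_eq 𝓕 ht₀ hx3 hxu'
      simp only [this]
      exact ⟨hx, by rw [← hxu']; exact hu2.2⟩
    have hw4 : w ∈ thickening δ (tc 𝓕 ht₀ G b e) := by
      rw [← thickening_closure]
      exact self_subset_thickening hδ _ hwcl
    exact hcont.eventually (isOpen_thickening.mem_nhds hw4)
  have hcpt : ∀ i : A × A × A,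
      IsCompact (closure (tc 𝓕 ht₀ G i.1 i.2.1 ∩ tc 𝓕 ht₀ G i.1 i.2.2)) := fun i =>
    (isCompact_closure_tc 𝓕 ht₀ G i.1 i.2.1).of_isClosed_subset isClosed_closure
      (closure_mono inter_subset_left)
  obtain ⟨δ₂, hδ₂, ε₂, hε₂, H2⟩ := tube_fin (t := t₀) hcpt key
  obtain ⟨δ₃, hδ₃, ε₃, hε₃, H3⟩ := tube_fin (ι := A)
    (P := fun a q => iv 𝓕 (sh 𝓕 ht₀ G a) q.1 (𝓕.σ (sh 𝓕 ht₀ G a) t₀ q.2) ∈
        ball q.2 (min δ δ₂) ∧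
      iv 𝓕 (sh 𝓕 ht₀ G a) q.1 (𝓕.σ (sh 𝓕 ht₀ G a) t₀ q.2) ∈ eb (G.c a) (2 * G.r a) ∧
      𝓕.σ (sh 𝓕 ht₀ G a) q.1 (iv 𝓕 (sh 𝓕 ht₀ G a) q.1 (𝓕.σ (sh 𝓕 ht₀ G a) t₀ q.2)) =
        𝓕.σ (sh 𝓕 ht₀ G a) t₀ q.2) (K := fun a => cb (G.c a) (G.r a)) (t := t₀)
    (fun a => isCompact_cb _ _) (by
      intro a z hz
      have hz3 := cb_sub_ball 𝓕 ht₀ G a hz
      have hzε : ball z (min δ δ₂ / 2) ∩ eb (G.c a) (2 * G.r a) ∈ 𝓝 z :=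
        inter_mem (ball_mem_nhds z (by positivity))
          ((isOpen_eb _ _).mem_nhds (cb_sub_eb _ (G.pos a) hz))
      have h1 := iv_eventually 𝓕 (i := sh 𝓕 ht₀ G a) ht₀ hz3 hzε
      have h2 : Tendsto (fun q : Cm p × Cm d => (q.1, 𝓕.σ (sh 𝓕 ht₀ G a) t₀ q.2)) (𝓝 (t₀, z))
          (𝓝 (t₀, 𝓕.σ (sh 𝓕 ht₀ G a) t₀ z)) := by
        refine (continuous_fst.tendsto (t₀, z)).prodMk_nhds ?_
        have h3 : Tendsto (𝓕.σ (sh 𝓕 ht₀ G a) t₀) (𝓝 z) (𝓝 (𝓕.σ (sh 𝓕 ht₀ G a) t₀ z)) :=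
          (𝓕.map_nhds' _ t₀ ht₀ z hz3).le
        exact h3.comp (continuous_snd.tendsto (t₀, z))
      have h4 : ∀ᶠ q : Cm p × Cm d in 𝓝 (t₀, z), q.2 ∈ ball z (min δ δ₂ / 2) :=
        (continuous_snd.tendsto (t₀, z)).eventually (ball_mem_nhds z (by positivity))
      filter_upwards [h2.eventually h1, h4] with q hq hq4
      refine ⟨?_, hq.2.1.2, hq.2.2.2⟩
      have h5 := hq.2.1.1
      rw [mem_ball] at h5 hq4 ⊢
      calc dist _ q.2 ≤ dist _ z + dist z q.2 := dist_triangle _ z _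
        _ < min δ δ₂ / 2 + min δ δ₂ / 2 := by
          rw [dist_comm z q.2]
          exact add_lt_add h5 hq4
        _ = min δ δ₂ := by ring)
  obtain ⟨ε₄, hε₄, H4⟩ := Metric.isOpen_iff.mp 𝓕.isOpen t₀ ht₀
  refine ⟨δ, hδ, min δ δ₂, lt_min hδ hδ₂, min (min ε₁ ε₂) (min ε₃ ε₄),
    lt_min (lt_min hε₁ hε₂) (lt_min hε₃ hε₄), min_le_left _ _, ?_, ?_, ?_, ?_⟩
  · exact (ball_subset_ball ((min_le_right _ _).trans (min_le_right _ _))).trans H4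
  · intro a b t ht z hz
    refine H1 (a, b) t (ball_subset_ball ((min_le_left _ _).trans (min_le_left _ _)) ht) z ?_
    simp only
    rw [thickening_closure]
    exact hz
  · intro a b e t ht z hz
    refine H2 (a, b, e) t (ball_subset_ball ((min_le_left _ _).trans (min_le_right _ _)) ht) z ?_
    simp only
    rw [thickening_closure]
    exact thickening_mono (min_le_right _ _) _ hz
  · intro a t ht z hz
    exact H3 a t (ball_subset_ball ((min_le_right _ _).trans (min_le_left _ _)) ht) z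
      (self_subset_thickening hδ₃ _ (eb_sub_cb _ _ hz))

end

end Vale.Agent.P281.H834.TS
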