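import Mathlib

/-!
# P281, project T-S (helper834): the pull-back of 1-forms
-/

open Set Filter
open scoped Topology ContDiff

noncomputable section

namespace Vale.Agent.P281.H834.TS

variable {V V' V'' : Type} [NormedAddCommGroup V] [NormedSpace ℝ V] [NormedAddCommGroup V']
  [NormedSpace ℝ V'] [NormedAddCommGroup V''] [NormedSpace ℝ V'']

/-- The pull-back of the 1-form `β` by `f`. -/
def pb (f : V → V') (β : V' → V' →L[ℝ] ℂ) (x : V) : V →L[ℝ] ℂ := (β (f x)).comp (fderiv ℝ f x)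

theorem pb_apply (f : V → V') (β : V' → V' →L[ℝ] ℂ) (x v : V) :
    pb f β x v = β (f x) (fderiv ℝ f x v) := rfl

theorem pb_smooth {f : V → V'} {β : V' → V' →L[ℝ] ℂ} {x : V} (hf : ContDiffAt ℝ ∞ f x)
    (hβ : ContDiffAt ℝ ∞ β (f x)) : ContDiffAt ℝ ∞ (pb f β) x := by
  have h1 : ContDiffAt ℝ ∞ (fun y => β (f y)) x := hβ.comp x hf
  have h2 : ContDiffAt ℝ ∞ (fderiv ℝ f) x := hf.fderiv_right (by simp)
  exact h1.clm_comp h2

theorem fderiv_pb {f : V → V'} {β : V' → V' →L[ℝ] ℂ} {x : V} (hf : ContDiffAt ℝ ∞ f x)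
    (hβ : DifferentiableAt ℝ β (f x)) (u v : V) :
    fderiv ℝ (pb f β) x u v = fderiv ℝ β (f x) (fderiv ℝ f x u) (fderiv ℝ f x v) +
      β (f x) (fderiv ℝ (fderiv ℝ f) x u v) := by
  have hf' : DifferentiableAt ℝ f x := hf.differentiableAt (by simp)
  have h1 : HasFDerivAt (fun y => β (f y)) ((fderiv ℝ β (f x)).comp (fderiv ℝ f x)) x :=
    hβ.hasFDerivAt.comp x hf'.hasFDerivAt
  have h2 : HasFDerivAt (fderiv ℝ f) (fderiv ℝ (fderiv ℝ f) x) x := by
    have : ContDiffAt ℝ 1 (fderiv ℝ f) x := hf.fderiv_right (by norm_cast)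
    exact (this.differentiableAt (by simp)).hasFDerivAt
  have h3 := h1.clm_comp h2
  have h4 : fderiv ℝ (pb f β) x = _ := h3.fderiv
  rw [h4]
  simp [add_comm]

theorem d_pb {f : V → V'} {β : V' → V' →L[ℝ] ℂ} {x : V} (hf : ContDiffAt ℝ ∞ f x)
    (hβ : DifferentiableAt ℝ β (f x)) (u v : V) :
    fderiv ℝ (pb f β) x u v - fderiv ℝ (pb f β) x v u =
      fderiv ℝ β (f x) (fderiv ℝ f x u) (fderiv ℝ f x v) -
        fderiv ℝ β (f x) (fderiv ℝ f x v) (fderiv ℝ f x u) := by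
  have hs : IsSymmSndFDerivAt ℝ f x := hf.isSymmSndFDerivAt (by
    simp only [minSmoothness_of_isRCLikeNormedField]
    exact WithTop.coe_le_coe.2 le_top)
  rw [fderiv_pb hf hβ, fderiv_pb hf hβ, hs u v]
  ring

theorem pb_comp {g : V → V'} {f : V' → V''} {β : V'' → V'' →L[ℝ] ℂ} {x : V}
    (hg : DifferentiableAt ℝ g x) (hf : DifferentiableAt ℝ f (g x)) :
    pb (fun y => f (g y)) β x = pb g (pb f β) x := by
  unfold pb
  have : fderiv ℝ (fun y => f (g y)) x = (fderiv ℝ f (g x)).comp (fderiv ℝ g x) :=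
    fderiv_comp x hf hg
  rw [this]
  rfl

theorem pb_congr {f f' : V → V'} {β : V' → V' →L[ℝ] ℂ} {x : V} (h : f =ᶠ[𝓝 x] f') :
    pb f β x = pb f' β x := by
  unfold pb
  rw [h.eq_of_nhds, h.fderiv_eq]

theorem pb_sub (f : V → V') (β β' : V' → V' →L[ℝ] ℂ) (x : V) :
    pb f (fun y => β y - β' y) x = pb f β x - pb f β' x := by
  ext v
  simp [pb_apply]

/-- The chain rule for functions. -/
theorem fderiv_fun_comp {f : V → V'} {g : V' → ℂ} {β : V' → V' →L[ℝ] ℂ} {x : V}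
    (hf : DifferentiableAt ℝ f x) (hg : DifferentiableAt ℝ g (f x))
    (h : fderiv ℝ g (f x) = β (f x)) : fderiv ℝ (fun y => g (f y)) x = pb f β x := by
  have : fderiv ℝ (fun y => g (f y)) x = (fderiv ℝ g (f x)).comp (fderiv ℝ f x) :=
    fderiv_comp x hg hf
  rw [this, h]
  rfl

end Vale.Agent.P281.H834.TS
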