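import Vale.Agent.P281.H834.TS.Tube
import Vale.Agent.P281.H834.TS.Kf
import Vale.Agent.P281.H834.TS.Pb
import Vale.Agent.P281.H352.TS.A3

/-!
# P281, project T-S (helper834): Čech data of a Kähler metric on the total space, near a fibre
-/

open Set Filter Metric MeasureTheory Vale.Agent.P281.H64
open scoped Topology ContDiff ComplexConjugate ComplexOrder

noncomputable section

namespace Vale.Agent.P281.H834.TS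

open Vale.Agent.P281.H64.TK Vale.Agent.P281.H64.TK.TS Vale.Agent.P281.H89.TS

variable {p d : ℕ} {E Γ : Type} [TopologicalSpace E] [Group Γ] [MulAction Γ E]

section
variable (𝓕 : Fam p d E Γ)
  {W : Fin 𝓕.N → Cm p × Cm d → Matrix (Fin p ⊕ Fin d) (Fin p ⊕ Fin d) ℂ}

theorem a2_smooth (hW : KFam 𝓕 W) (i : Fin 𝓕.N) {t : Cm p} (ht : t ∈ 𝓕.T) {z : Cm d}
    (hz : z ∈ ball (0 : Cm d) 3) : ContDiffAt ℝ ∞ (fun q => KF (W i q)) (t, z) :=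
  KF_smooth fun a b => hW.smooth i t ht z hz a b

theorem a2_closed (hW : KFam 𝓕 W) (i : Fin 𝓕.N) {t : Cm p} (ht : t ∈ 𝓕.T) {z : Cm d}
    (hz : z ∈ ball (0 : Cm d) 3) (u v w : Cm p × Cm d) :
    fderiv ℝ (fun q => KF (W i q)) (t, z) u v w + fderiv ℝ (fun q => KF (W i q)) (t, z) v w u +
      fderiv ℝ (fun q => KF (W i q)) (t, z) w u v = 0 := by
  refine KF_closed (fun a b => hW.smooth i t ht z hz a b) ?_
    (fun a b c => hW.closed i t ht z hz a b c) u v w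
  have h1 : ∀ᶠ q : Cm p × Cm d in 𝓝 (t, z), q.1 ∈ 𝓕.T :=
    (continuous_fst.tendsto (t, z)).eventually (𝓕.isOpen.mem_nhds ht)
  have h2 : ∀ᶠ q : Cm p × Cm d in 𝓝 (t, z), q.2 ∈ ball (0 : Cm d) 3 :=
    (continuous_snd.tendsto (t, z)).eventually (isOpen_ball.mem_nhds hz)
  filter_upwards [h1, h2] with q hq1 hq2
  exact (hW.posDef i q.1 hq1 q.2 hq2).isHermitian

/-- The map `(t, z) ↦ (t, z')` of a change of sheets. -/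
def th (i j : Fin 𝓕.N) (q : Cm p × Cm d) : Cm p × Cm d := (q.1, tr 𝓕 i j q)

theorem a2_change (hW : KFam 𝓕 W) {i j : Fin 𝓕.N} {t : Cm p} (ht : t ∈ 𝓕.T) {z w : Cm d}
    (hz : z ∈ ball (0 : Cm d) 3) (hw : w ∈ ball (0 : Cm d) 3) (h : 𝓕.σ i t z = 𝓕.σ j t w)
    (u v : Cm p × Cm d) :
    KF (W i (t, z)) u v = KF (W j (t, w)) (fderiv ℝ (th 𝓕 i j) (t, z) u)
      (fderiv ℝ (th 𝓕 i j) (t, z) v) := by
  obtain ⟨θ, h1, h2, h3, h4⟩ := tr_analytic 𝓕 ht hz hw h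
  have h5 : fderiv ℝ (th 𝓕 i j) (t, z) = fderiv ℝ (fun q : Cm p × Cm d => (q.1, θ q)) (t, z) := by
    refine Filter.EventuallyEq.fderiv_eq ?_
    filter_upwards [h4] with q hq
    simp only [th, hq]
  rw [hW.change i j t ht z hz w hw 1 θ h1 h2 h3, h5]
  exact KF_change (co_fderiv h1 u) (co_fderiv h1 v)

theorem th_smooth {i j : Fin 𝓕.N} {t : Cm p} (ht : t ∈ 𝓕.T) {z w : Cm d}
    (hz : z ∈ ball (0 : Cm d) 3) (hw : w ∈ ball (0 : Cm d) 3) (h : 𝓕.σ i t z = 𝓕.σ j t w) :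
    ContDiffAt ℝ ∞ (th 𝓕 i j) (t, z) := by
  have h1 : ContDiffAt ℝ ∞ (tr 𝓕 i j) (t, z) :=
    ((tr_analyticAt 𝓕 ht hz hw h).restrictScalars (𝕜 := ℝ)).contDiffAt
  exact contDiffAt_fst.prodMk h1

end

theorem center_mem_eb (c : Cm d) {r : ℝ} (hr : 0 < r) : c ∈ eb c r := by
  simp only [eb, mem_ofPred_eq, sub_self, norm_zero]
  simp
  positivity

section
variable (𝓕 : Fam p d E Γ)
  {W : Fin 𝓕.N → Cm p × Cm d → Matrix (Fin p ⊕ Fin d) (Fin p ⊕ Fin d) ℂ}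
  {t₀ : Cm p} (ht₀ : t₀ ∈ 𝓕.T) {A : Type} (G : Good (𝓕.at t₀ ht₀) A)

/-- `(t, z) ↦ (t, ta a b (t, z))`. -/
def Ta (a b : A) (q : Cm p × Cm d) : Cm p × Cm d := (q.1, ta 𝓕 ht₀ G a b q)

/-- Čech data of `KF W` over `ball t₀ ε`. -/
structure Dat (W : Fin 𝓕.N → Cm p × Cm d → Matrix (Fin p ⊕ Fin d) (Fin p ⊕ Fin d) ℂ)
    (δ δ' ε : ℝ) (β : A → Cm p × Cm d → (Cm p × Cm d) →L[ℝ] ℂ)
    (g : A → A → Cm p × Cm d → ℂ) : Prop where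
  pos : 0 < ε
  pos' : 0 < δ'
  le : δ' ≤ δ
  sub : ball t₀ ε ⊆ 𝓕.T
  smb : ∀ a, ∀ t ∈ ball t₀ ε, ∀ z ∈ eb (G.c a) (2 * G.r a), ContDiffAt ℝ ∞ (β a) (t, z)
  dd : ∀ a, ∀ t ∈ ball t₀ ε, ∀ z ∈ eb (G.c a) (2 * G.r a), ∀ u v,
    fderiv ℝ (β a) (t, z) u v - fderiv ℝ (β a) (t, z) v u = KF (W (sh 𝓕 ht₀ G a) (t, z)) u v
  ev : ∀ a b, ∀ t ∈ ball t₀ ε, ∀ z ∈ thickening δ (tc 𝓕 ht₀ G a b), Ev 𝓕 ht₀ G a b (t, z)
  smg : ∀ a b, ∀ t ∈ ball t₀ ε, ∀ z ∈ thickening δ (tc 𝓕 ht₀ G a b),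
    ContDiffAt ℝ ∞ (g a b) (t, z)
  dg : ∀ a b, ∀ t ∈ ball t₀ ε, ∀ z ∈ thickening δ (tc 𝓕 ht₀ G a b),
    fderiv ℝ (g a b) (t, z) = β a (t, z) - pb (Ta 𝓕 ht₀ G a b) (β b) (t, z)
  tri : ∀ a b e, ∀ t ∈ ball t₀ ε, ∀ z ∈ thickening δ' (tc 𝓕 ht₀ G a b ∩ tc 𝓕 ht₀ G a e),
    ta 𝓕 ht₀ G a b (t, z) ∈ thickening δ (tc 𝓕 ht₀ G b e)
  near : ∀ a, ∀ t ∈ ball t₀ ε, ∀ z ∈ eb (G.c a) (G.r a),
    iv 𝓕 (sh 𝓕 ht₀ G a) t (𝓕.σ (sh 𝓕 ht₀ G a) t₀ z) ∈ ball z δ' ∧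
    iv 𝓕 (sh 𝓕 ht₀ G a) t (𝓕.σ (sh 𝓕 ht₀ G a) t₀ z) ∈ eb (G.c a) (2 * G.r a) ∧
    𝓕.σ (sh 𝓕 ht₀ G a) t (iv 𝓕 (sh 𝓕 ht₀ G a) t (𝓕.σ (sh 𝓕 ht₀ G a) t₀ z)) =
      𝓕.σ (sh 𝓕 ht₀ G a) t₀ z

theorem Ta_smooth {a b : A} {q : Cm p × Cm d} (h : Ev 𝓕 ht₀ G a b q) :
    ContDiffAt ℝ ∞ (Ta 𝓕 ht₀ G a b) q := by
  obtain ⟨h1, h2, h3, h4⟩ := h
  exact th_smooth 𝓕 (i := sh 𝓕 ht₀ G a) (j := sh 𝓕 ht₀ G b) h1 (eb2_sub 𝓕 ht₀ G a h2)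
    (eb2_sub 𝓕 ht₀ G b h3) h4.symm

/-- **The data exist.** -/
theorem exists_dat [T2Space E] [Fintype A] (hW : KFam 𝓕 W) :
    ∃ δ δ' ε β g, Dat 𝓕 ht₀ G W δ δ' ε β g := by
  obtain ⟨δ, hδ, δ', hδ', ε, hε, hle, hsub, hev, htri, hnear⟩ := exists_tube 𝓕 ht₀ G
  -- the primitives `β`
  have hβ : ∀ a, ∃ β : Cm p × Cm d → (Cm p × Cm d) →L[ℝ] ℂ,
      (∀ t ∈ ball t₀ ε, ∀ z ∈ eb (G.c a) (2 * G.r a), ContDiffAt ℝ ∞ β (t, z)) ∧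
      ∀ t ∈ ball t₀ ε, ∀ z ∈ eb (G.c a) (2 * G.r a), ∀ u v,
        fderiv ℝ β (t, z) u v - fderiv ℝ β (t, z) v u =
          KF (W (sh 𝓕 ht₀ G a) (t, z)) u v := by
    intro a
    set C : Set (Cm p × Cm d) := ball t₀ ε ×ˢ eb (G.c a) (2 * G.r a) with hC
    have hCo : IsOpen C := isOpen_ball.prod (isOpen_eb _ _)
    have hCc : Convex ℝ C := (convex_ball t₀ ε).prod (convex_eb _ _)
    have hx : (t₀, G.c a) ∈ C :=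
      ⟨mem_ball_self hε, center_mem_eb _ (mul_pos two_pos (G.pos a))⟩
    have hsm : ContDiffOn ℝ ∞ (fun q => KF (W (sh 𝓕 ht₀ G a) q)) C := by
      rintro ⟨t, z⟩ ⟨ht, hz⟩
      exact (a2_smooth 𝓕 hW _ (hsub ht) (eb2_sub 𝓕 ht₀ G a hz)).contDiffWithinAt
    refine ⟨H352.TS.hom (t₀, G.c a) (fun q => KF (W (sh 𝓕 ht₀ G a) q)), ?_, ?_⟩
    · intro t ht z hz
      exact (H352.TS.contDiffOn_hom (t₀, G.c a) _ hCo hCc hx hsm).contDiffAt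
        (hCo.mem_nhds ⟨ht, hz⟩)
    · intro t ht z hz u v
      refine H352.TS.poincare_two (t₀, G.c a) _ hCo hCc hx hsm (fun q _ u v => KF_alt _ u v)
        ?_ (z := (t, z)) ⟨ht, hz⟩ u v
      rintro ⟨s, y⟩ ⟨hs, hy⟩ u v w
      exact a2_closed 𝓕 hW _ (hsub hs) (eb2_sub 𝓕 ht₀ G a hy) u v w
  choose β hβs hβd using hβ
  -- the functions `g`
  have hg : ∀ a b, ∃ g : Cm p × Cm d → ℂ,
      (∀ t ∈ ball t₀ ε, ∀ z ∈ thickening δ (tc 𝓕 ht₀ G a b), ContDiffAt ℝ ∞ g (t, z)) ∧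
      ∀ t ∈ ball t₀ ε, ∀ z ∈ thickening δ (tc 𝓕 ht₀ G a b),
        fderiv ℝ g (t, z) = β a (t, z) - pb (Ta 𝓕 ht₀ G a b) (β b) (t, z) := by
    intro a b
    set C : Set (Cm p × Cm d) := ball t₀ ε ×ˢ thickening δ (tc 𝓕 ht₀ G a b) with hC
    have hCo : IsOpen C := isOpen_ball.prod isOpen_thickening
    have hCc : Convex ℝ C := (convex_ball t₀ ε).prod ((convex_tc 𝓕 ht₀ G a b).thickening δ)
    have h1 : ∀ q ∈ C, ContDiffAt ℝ ∞ (β a) q := fun q hq =>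
      hβs a q.1 hq.1 q.2 (hev a b q.1 hq.1 q.2 hq.2).2.1
    have h2 : ∀ q ∈ C, ContDiffAt ℝ ∞ (β b) (Ta 𝓕 ht₀ G a b q) := fun q hq =>
      hβs b q.1 hq.1 _ (hev a b q.1 hq.1 q.2 hq.2).2.2.1
    have h3 : ∀ q ∈ C, ContDiffAt ℝ ∞ (Ta 𝓕 ht₀ G a b) q := fun q hq =>
      Ta_smooth 𝓕 ht₀ G (hev a b q.1 hq.1 q.2 hq.2)
    have h4 : ∀ q ∈ C, ContDiffAt ℝ ∞ (pb (Ta 𝓕 ht₀ G a b) (β b)) q := fun q hq =>
      pb_smooth (h3 q hq) (h2 q hq)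
    obtain ⟨g, hg1, hg2⟩ := H352.TS.poincare_one hCo hCc
      (b := fun q => β a q - pb (Ta 𝓕 ht₀ G a b) (β b) q)
      (fun q hq => ((h1 q hq).sub (h4 q hq)).contDiffWithinAt) (by
        intro q hq u v
        have h5 : fderiv ℝ (fun q => β a q - pb (Ta 𝓕 ht₀ G a b) (β b) q) q =
            fderiv ℝ (β a) q - fderiv ℝ (pb (Ta 𝓕 ht₀ G a b) (β b)) q :=
          fderiv_fun_sub ((h1 q hq).differentiableAt (by simp))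
            ((h4 q hq).differentiableAt (by simp))
        rw [h5]
        simp only [sub_apply]
        obtain ⟨e1, e2, e3, e4⟩ := hev a b q.1 hq.1 q.2 hq.2
        have h6 := hβd a q.1 hq.1 q.2 e2 u v
        have h7 := d_pb (h3 q hq) ((h2 q hq).differentiableAt (by simp)) u v
        have h8 := hβd b q.1 hq.1 _ e3 (fderiv ℝ (Ta 𝓕 ht₀ G a b) q u)
          (fderiv ℝ (Ta 𝓕 ht₀ G a b) q v)
        have h9 := a2_change 𝓕 hW (hsub hq.1) (eb2_sub 𝓕 ht₀ G a e2) (eb2_sub 𝓕 ht₀ G b e3)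
          e4.symm u v
        have h10 : fderiv ℝ (pb (Ta 𝓕 ht₀ G a b) (β b)) q u v -
            fderiv ℝ (pb (Ta 𝓕 ht₀ G a b) (β b)) q v u = KF (W (sh 𝓕 ht₀ G a) (q.1, q.2)) u v :=
          h7.trans (h8.trans h9.symm)
        linear_combination h6 - h10)
    exact ⟨g, fun t ht z hz => (hg1.contDiffAt (hCo.mem_nhds ⟨ht, hz⟩)),
      fun t ht z hz => hg2 (t, z) ⟨ht, hz⟩⟩
  choose g hgs hgd using hg
  exact ⟨δ, δ', ε, β, g, hε, hδ', hle, hsub, hβs, hβd, hev, hgs, hgd, htri, hnear⟩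

variable {𝓕 ht₀ G}
variable {δ δ' ε : ℝ} {β : A → Cm p × Cm d → (Cm p × Cm d) →L[ℝ] ℂ}
  {g : A → A → Cm p × Cm d → ℂ}

/-- Composition of the transition maps. -/
theorem Ta_comp {a b e : A} {q : Cm p × Cm d} (h : Ev 𝓕 ht₀ G a b q) :
    Ta 𝓕 ht₀ G b e (Ta 𝓕 ht₀ G a b q) = Ta 𝓕 ht₀ G a e q := by
  obtain ⟨-, -, -, h4⟩ := h
  simp only [Ta, ta, tr] at h4 ⊢
  rw [h4]

/-- The cocycle. -/
def Ph (𝓕 : Fam p d E Γ) {t₀ : Cm p} (ht₀ : t₀ ∈ 𝓕.T) {A : Type} (G : Good (𝓕.at t₀ ht₀) A)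
    (g : A → A → Cm p × Cm d → ℂ) (a b e : A) (q : Cm p × Cm d) : ℂ :=
  g b e (Ta 𝓕 ht₀ G a b q) - g a e q + g a b q

/-- **The cocycle is constant.** -/
theorem Dat.const (D : Dat 𝓕 ht₀ G W δ δ' ε β g) (a b e : A) {t t' : Cm p}
    (ht : t ∈ ball t₀ ε) (ht' : t' ∈ ball t₀ ε) {z z' : Cm d}
    (hz : z ∈ thickening δ' (tc 𝓕 ht₀ G a b ∩ tc 𝓕 ht₀ G a e))
    (hz' : z' ∈ thickening δ' (tc 𝓕 ht₀ G a b ∩ tc 𝓕 ht₀ G a e)) :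
    Ph 𝓕 ht₀ G g a b e (t, z) = Ph 𝓕 ht₀ G g a b e (t', z') := by
  set C : Set (Cm p × Cm d) :=
    ball t₀ ε ×ˢ thickening δ' (tc 𝓕 ht₀ G a b ∩ tc 𝓕 ht₀ G a e) with hC
  have hCo : IsOpen C := isOpen_ball.prod isOpen_thickening
  have hCc : Convex ℝ C := (convex_ball t₀ ε).prod
    (((convex_tc 𝓕 ht₀ G a b).inter (convex_tc 𝓕 ht₀ G a e)).thickening δ')
  have hab : ∀ q ∈ C, q.2 ∈ thickening δ (tc 𝓕 ht₀ G a b) := fun q hq =>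
    thickening_mono D.le _ (thickening_subset_of_subset δ' inter_subset_left hq.2)
  have hae : ∀ q ∈ C, q.2 ∈ thickening δ (tc 𝓕 ht₀ G a e) := fun q hq =>
    thickening_mono D.le _ (thickening_subset_of_subset δ' inter_subset_right hq.2)
  have hev : ∀ q ∈ C, Ev 𝓕 ht₀ G a b q := fun q hq => D.ev a b q.1 hq.1 q.2 (hab q hq)
  have hTa : ∀ q ∈ C, DifferentiableAt ℝ (Ta 𝓕 ht₀ G a b) q := fun q hq =>
    (Ta_smooth 𝓕 ht₀ G (hev q hq)).differentiableAt (by simp)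
  have hbe : ∀ q ∈ C, (Ta 𝓕 ht₀ G a b q).2 ∈ thickening δ (tc 𝓕 ht₀ G b e) := fun q hq =>
    D.tri a b e q.1 hq.1 q.2 hq.2
  have h1 : ∀ q ∈ C, DifferentiableAt ℝ (g b e) (Ta 𝓕 ht₀ G a b q) := fun q hq =>
    (D.smg b e q.1 hq.1 _ (hbe q hq)).differentiableAt (by simp)
  have h2 : ∀ q ∈ C, DifferentiableAt ℝ (g a e) q := fun q hq =>
    (D.smg a e q.1 hq.1 _ (hae q hq)).differentiableAt (by simp)
  have h3 : ∀ q ∈ C, DifferentiableAt ℝ (g a b) q := fun q hq =>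
    (D.smg a b q.1 hq.1 _ (hab q hq)).differentiableAt (by simp)
  have h4 : ∀ q ∈ C, DifferentiableAt ℝ (fun q => g b e (Ta 𝓕 ht₀ G a b q)) q := fun q hq =>
    (h1 q hq).comp q (hTa q hq)
  have hd : ∀ q ∈ C, DifferentiableAt ℝ (Ph 𝓕 ht₀ G g a b e) q := fun q hq =>
    ((h4 q hq).sub (h2 q hq)).add (h3 q hq)
  have h0 : ∀ q ∈ C, fderiv ℝ (Ph 𝓕 ht₀ G g a b e) q = 0 := by
    intro q hq
    have e1 : fderiv ℝ (Ph 𝓕 ht₀ G g a b e) q =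
        fderiv ℝ (fun q => g b e (Ta 𝓕 ht₀ G a b q)) q - fderiv ℝ (g a e) q +
          fderiv ℝ (g a b) q := by
      have := (((h4 q hq).hasFDerivAt.sub (h2 q hq).hasFDerivAt).add
        (h3 q hq).hasFDerivAt).fderiv
      exact this
    have e2 : fderiv ℝ (fun q => g b e (Ta 𝓕 ht₀ G a b q)) q =
        pb (Ta 𝓕 ht₀ G a b) (fun y => β b y - pb (Ta 𝓕 ht₀ G b e) (β e) y) q :=
      fderiv_fun_comp (β := fun y => β b y - pb (Ta 𝓕 ht₀ G b e) (β e) y) (hTa q hq) (h1 q hq)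
        (D.dg b e q.1 hq.1 _ (hbe q hq))
    have e3 : pb (fun y => Ta 𝓕 ht₀ G b e (Ta 𝓕 ht₀ G a b y)) (β e) q =
        pb (Ta 𝓕 ht₀ G a b) (pb (Ta 𝓕 ht₀ G b e) (β e)) q := by
      refine pb_comp (hTa q hq) ?_
      exact (Ta_smooth 𝓕 ht₀ G (D.ev b e q.1 hq.1 _ (hbe q hq))).differentiableAt (by simp)
    have e4 : pb (fun y => Ta 𝓕 ht₀ G b e (Ta 𝓕 ht₀ G a b y)) (β e) q =
        pb (Ta 𝓕 ht₀ G a e) (β e) q := by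
      refine pb_congr ?_
      filter_upwards [hCo.mem_nhds hq] with y hy
      exact Ta_comp (hev y hy)
    rw [e1, e2, pb_sub, ← e3, e4, D.dg a e q.1 hq.1 q.2 (hae q hq),
      D.dg a b q.1 hq.1 q.2 (hab q hq)]
    abel
  exact hCo.is_const_of_fderiv_eq_zero hCc.isPreconnected
    (fun q hq => (hd q hq).differentiableWithinAt) (fun q hq => h0 q hq)
    (x := (t, z)) (y := (t', z')) ⟨ht, hz⟩ ⟨ht', hz'⟩

end

end Vale.Agent.P281.H834.TS
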